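import Claimed.Agent.R152.B.F.Flat

/-!
# Row 152, module B, sec. 4.4-4.6: THEOREM F

Black boxes: `F/Setup.lean`, `F/Phi.lean`, `F/Flat.lean`, `Spare/SC.lean` (`theoremSC`), `Spare/Conn.lean` (`K_le_induction`).
Statement FROZEN; auxiliary lemmas welcome.
-/

open Pointwise
open scoped Classical

namespace Claimed.Agent.R152.B
namespace CutSys

universe u v w w'
variable {TT : Type u} {X : Type v} {C : CutSys TT X}
variable {Γ : Type w} [Group Γ] [MulAction Γ TT] {v : ℕ → Finset TT}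
variable {P : Type w'} [Group P] {N : ℕ} {π : P →* Γ} {I : ℕ → Γ → P}

/-- 4.4: `π (f u) = g_u`. -/
theorem final_pi_f (T : IsTower C Γ v) (hN : 9 ≤ N) (A : IsAmalgam C v N π I) {f : Finset TT → P}
    (hf1 : f (v 0) = 1)
    (hf : ∀ x ∈ C.K (v 0), ∀ y, C.Exp x y → y.card ≤ N → f y = f x * phi v I x y) :
    ∀ u ∈ C.K (v 0), u.card ≤ N → π (f u) = gg Γ v u := by
  refine K_le_induction T.part0 (by omega) (by rw [T.card 0]; omega)
    (fun u => π (f u) = gg Γ v u) ?_ ?_ ?_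
  · show π (f (v 0)) = gg Γ v (v 0)
    rw [hf1, map_one, gg_base]
  · intro x hx y he hc hp
    show π (f y) = gg Γ v y
    rw [hf x hx y he hc, map_mul, π_phi T A hx hc he, hp, mul_inv_cancel_left]
  · intro x hx y he hc hp
    show π (f x) = gg Γ v x
    have hp' : π (f y) = gg Γ v y := hp
    rw [hf x hx y he hc, map_mul, π_phi T A hx hc he] at hp'
    have h2 : π (f x) * (gg Γ v x)⁻¹ = 1 := by
      have h3 := congrArg (fun z => z * (gg Γ v y)⁻¹) hp'
      simpa [mul_assoc] using h3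
    exact mul_inv_eq_one.1 h2

/-- 4.5, `Q_n ⊆ Q_{n+1}`. -/
theorem final_up (T : IsTower C Γ v) (A : IsAmalgam C v N π I) {f : Finset TT → P}
    (hf : ∀ x ∈ C.K (v 0), ∀ y, C.Exp x y → y.card ≤ N → f y = f x * phi v I x y)
    {n : ℕ} (hn : n + 1 < N) {u : Finset TT} (hu : u ∈ C.K (v 0)) (hc : u.card = n + 1)
    {h : Γ} (hh : h • v n = v n) :
    ∃ u' ∈ C.K (v 0), u'.card = n + 1 + 1 ∧ ∃ k : Γ, k • v (n + 1) = v (n + 1) ∧
      f u * I n h = f u' * I (n + 1) k := by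
  have hgu : gg Γ v u • v n = u := gg_spec T hu hc
  set u' : Finset TT := (gg Γ v u * h) • v (n + 1) with hu'
  have hK' : u' ∈ C.K (v 0) := T.smul_mem_K _ (T.mem_K (n + 1))
  have hc' : u'.card = n + 1 + 1 := by rw [hu', Finset.card_smul_finset, T.card]
  have he : C.Exp u u' := by
    have h0 := T.smul_exp (gg Γ v u * h) (T.exp n)
    rwa [mul_smul (gg Γ v u) h (v n), hh, hgu] at h0
  have hgu' : gg Γ v u' • v (n + 1) = u' := gg_spec T hK' hc'
  have hphi := phi_eq T A hu hc hn he hh hu'.symm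
  refine ⟨u', hK', hc', (gg Γ v u')⁻¹ * gg Γ v u * h, ?_, ?_⟩
  · rw [mul_assoc, mul_smul, ← hu', inv_smul_eq_iff, hgu']
  · rw [hf u hu u' he (by omega), hphi]
    simp [mul_assoc]

/-- 4.5, `Q_{n+1} ⊆ Q_n`. -/
theorem final_down (T : IsTower C Γ v) (A : IsAmalgam C v N π I) {f : Finset TT → P}
    (hf : ∀ x ∈ C.K (v 0), ∀ y, C.Exp x y → y.card ≤ N → f y = f x * phi v I x y)
    {n : ℕ} (hn : n + 1 < N) {u' : Finset TT} (hu' : u' ∈ C.K (v 0)) (hc' : u'.card = n + 1 + 1)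
    {k : Γ} (hk : k • v (n + 1) = v (n + 1)) :
    ∃ u ∈ C.K (v 0), u.card = n + 1 ∧ ∃ h : Γ, h • v n = v n ∧
      f u' * I (n + 1) k = f u * I n h := by
  have hgu' : gg Γ v u' • v (n + 1) = u' := gg_spec T hu' hc'
  set u : Finset TT := (gg Γ v u' * k) • v n with hu
  have hK : u ∈ C.K (v 0) := T.smul_mem_K _ (T.mem_K n)
  have hc : u.card = n + 1 := by rw [hu, Finset.card_smul_finset, T.card]
  have he : C.Exp u u' := by
    have h0 := T.smul_exp (gg Γ v u' * k) (T.exp n)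
    rwa [mul_smul (gg Γ v u') k (v (n + 1)), hk, hgu'] at h0
  have hgu : gg Γ v u • v n = u := gg_spec T hK hc
  have e1 : gg Γ v u * ((gg Γ v u)⁻¹ * gg Γ v u' * k) = gg Γ v u' * k := by
    rw [mul_assoc, mul_inv_cancel_left]
  have hh : ((gg Γ v u)⁻¹ * gg Γ v u' * k) • v n = v n := by
    rw [mul_assoc, mul_smul, ← hu, inv_smul_eq_iff, hgu]
  have h2 : (gg Γ v u * ((gg Γ v u)⁻¹ * gg Γ v u' * k)) • v (n + 1) = u' := by
    rw [e1, mul_smul, hk, hgu']
  have hphi := phi_eq T A hK hc hn he hh h2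
  have e2 : (gg Γ v u')⁻¹ * gg Γ v u * ((gg Γ v u)⁻¹ * gg Γ v u' * k) = k := by
    rw [mul_assoc, e1, inv_mul_cancel_left]
  rw [e2] at hphi
  refine ⟨u, hK, hc, (gg Γ v u)⁻¹ * gg Γ v u' * k, hh, ?_⟩
  rw [hf u hK u' he (by omega), hphi]
  simp [mul_assoc]

/-- **THEOREM F.**  If `N ≥ 9` then `π` is bijective.
Proof.  `f` := potential of `phi` on `K_{≤N}` (`theoremSC` + `phi_locFlat`), `f (v 0) = 1`.
4.4  `π (f u) = g_u` for `u ∈ K`, `|u| ≤ N` (`K_le_induction`, `π_phi`, `gg_base`).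
4.5  `Q_n := { f u * I n k : u ∈ K, |u| = n+1, k ∈ H_n }` (`n < N`).  `Q_n = Q_{n+1}`: given `f u * I n h` put `u' = (g_u h) • v (n+1)`
     (`Exp u u'`); by 4.1 `f u' = f u * I n h * (I (n+1) k)⁻¹`, `k = g_u'⁻¹ g_u h ∈ H_{n+1}`.  Conversely given `f u' * I (n+1) k` put
     `u = (g_u' k) • v n` (`Exp u u'`), `h := g_u⁻¹ g_u' k ∈ H_n`, `(g_u h) • v (n+1) = u'`, so `phi u u' = I n h (I (n+1) k)⁻¹`.
     `Q := Q_0 = .. = Q_{N-1}` contains `1` and is stable under right multiplication by every `I n h` (`h ∈ H_n`, `n < N`), and by their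
     inverses (`I_inv`); hence `Q = P` (`gen`, e.g. applied to the subgroup `{p | ∀ q ∈ Q, q * p ∈ Q ∧ q * p⁻¹ ∈ Q}`).
4.6  `p ∈ ker π`: `p = f u * I 0 k`, `1 = g_u k`, so `u = g_u • v 0 = v 0`, `g_u = 1`, `k = 1`, `p = 1`.
     Onto: `g ∈ Γ`, `u = g • v 0 ∈ K` (`act_K`), `k = g_u⁻¹ g ∈ H_0`, `g = π (f u * I 0 k)`. -/
theorem theoremF (T : IsTower C Γ v) (hN : 9 ≤ N) (A : IsAmalgam C v N π I) :
    Function.Bijective π := by
  obtain ⟨f, hf1, hf⟩ := theoremSC T.part0 hN (phi_locFlat T A)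
  have hπf := final_pi_f T hN A hf1 hf
  -- the sets `Q_n`
  let Q : ℕ → Set P := fun n =>
    {q | ∃ u ∈ C.K (v 0), u.card = n + 1 ∧ ∃ k : Γ, k • v n = v n ∧ q = f u * I n k}
  have hQstep : ∀ n, n + 1 < N → Q (n + 1) = Q n := by
    intro n hn
    ext q
    constructor
    · rintro ⟨u', hu', hc', k, hk, rfl⟩
      exact final_down T A hf hn hu' hc' hk
    · rintro ⟨u, hu, hc, h, hh, rfl⟩
      exact final_up T A hf hn hu hc hh
  have hQ : ∀ n, n < N → Q n = Q 0 := by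
    intro n
    induction n with
    | zero => intro _; rfl
    | succ n ih => intro hn; rw [hQstep n hn, ih (by omega)]
  have hQone : (1 : P) ∈ Q 0 :=
    ⟨v 0, T.mem_K 0, T.card 0, 1, one_smul _ _, by rw [hf1, A.I_one (by omega), one_mul]⟩
  have hQmul : ∀ n, n < N → ∀ h : Γ, h • v n = v n → ∀ q ∈ Q 0, q * I n h ∈ Q 0 := by
    intro n hn h hh q hq
    rw [← hQ n hn] at hq ⊢
    obtain ⟨u, hu, hc, k, hk, rfl⟩ := hq
    refine ⟨u, hu, hc, k * h, by rw [mul_smul, hh, hk], ?_⟩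
    rw [A.I_mul n hn k h hk hh, mul_assoc]
  -- the subgroup
  let S : Subgroup P :=
    { carrier := {p | ∀ q ∈ Q 0, q * p ∈ Q 0 ∧ q * p⁻¹ ∈ Q 0}
      one_mem' := fun q hq => by simpa using hq
      mul_mem' := by
        intro a b ha hb q hq
        refine ⟨?_, ?_⟩
        · rw [← mul_assoc]
          exact (hb _ (ha q hq).1).1
        · rw [mul_inv_rev, ← mul_assoc]
          exact (ha _ (hb q hq).2).2
      inv_mem' := by
        intro a ha q hq
        refine ⟨(ha q hq).2, ?_⟩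
        rw [inv_inv]
        exact (ha q hq).1 }
  have hS : S = ⊤ := by
    refine A.gen S fun n hn h hh q hq => ⟨hQmul n hn h hh q hq, ?_⟩
    have hh' : h⁻¹ • v n = v n := by rw [inv_smul_eq_iff, hh]
    rw [← A.I_inv hn hh]
    exact hQmul n hn h⁻¹ hh' q hq
  have hall : ∀ p : P, p ∈ Q 0 := by
    intro p
    have hp : p ∈ S := by rw [hS]; exact Subgroup.mem_top p
    have := (hp 1 hQone).1
    rwa [one_mul] at this
  have h0N : 0 < N := by omega
  constructor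
  · rw [injective_iff_map_eq_one]
    intro p hp
    obtain ⟨u, hu, hc, k, hk, rfl⟩ := hall p
    have hgu : gg Γ v u • v 0 = u := gg_spec T hu hc
    rw [map_mul, hπf u hu (by omega), A.π_I 0 h0N k hk] at hp
    have huv : u = v 0 := by
      rw [← hgu]
      conv_lhs => rw [← hk]
      rw [← mul_smul, hp, one_smul]
    subst huv
    rw [gg_base, one_mul] at hp
    rw [hf1, hp, A.I_one h0N, one_mul]
  · intro g
    have hu : g • v 0 ∈ C.K (v 0) := T.act_K g
    have hc : (g • v 0).card = 0 + 1 := by rw [Finset.card_smul_finset, T.card]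
    have hgu : gg Γ v (g • v 0) • v 0 = g • v 0 := gg_spec T hu hc
    have hk : ((gg Γ v (g • v 0))⁻¹ * g) • v 0 = v 0 := by
      rw [mul_smul, inv_smul_eq_iff, hgu]
    refine ⟨f (g • v 0) * I 0 ((gg Γ v (g • v 0))⁻¹ * g), ?_⟩
    rw [map_mul, hπf _ hu (by omega), A.π_I 0 h0N _ hk, mul_inv_cancel_left]

end CutSys
end Claimed.Agent.R152.B
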