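import Claimed.Agent.R152.B.F.Phi

/-!
# Row 152, module B, sec. 4.3: `phi` is locally flat up to height `N`

Black boxes: `F/Setup.lean`, `F/Phi.lean`, `Cut/Part.lean`, `Cut/Cell.lean`.   Statement FROZEN; auxiliary lemmas welcome.
(Ported to the Defs of `Cut/Defs.lean`: `LocFlat o M φ` is `Flat o φ M`.)
-/

open Pointwise
open scoped Classical

namespace Claimed.Agent.R152.B
namespace CutSys

universe u v w w'
variable {TT : Type u} {X : Type v} {C : CutSys TT X}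
variable {Γ : Type w} [Group Γ] [MulAction Γ TT] {v : ℕ → Finset TT}
variable {P : Type w'} [Group P] {N : ℕ} {π : P →* Γ} {I : ℕ → Γ → P}

/-- group algebra behind the square case. -/
theorem phi_flat_alg2 {P : Type w'} [Group P] {ih ih1 ih2 ik1 ik2 ia ic : P}
    (hrel : ih1 * ih2 * ic = ik1 * ik2) :
    ih * ih1 * ih2 * ia⁻¹ = ih * ik1 * ik2 * (ia * ic)⁻¹ := by
  have : ih * ik1 * ik2 = ih * (ih1 * ih2 * ic) := by rw [hrel]; group
  rw [this]; group

/-- group algebra behind the hexagon case. -/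
theorem phi_flat_alg3 {P : Type w'} [Group P] {ih ih1 ih2 ih3 ik1 ik2 ik3 ia ic : P}
    (hrel : ih1 * ih2 * ih3 * ic = ik1 * ik2 * ik3) :
    ih * ih1 * ih2 * ih3 * ia⁻¹ = ih * ik1 * ik2 * ik3 * (ia * ic)⁻¹ := by
  have : ih * ik1 * ik2 * ik3 = ih * (ih1 * ih2 * ih3 * ic) := by rw [hrel]; group
  rw [this]; group

/-- the square case of 4.3. -/
theorem phi_flat_sq (T : IsTower C Γ v) (A : IsAmalgam C v N π I) {u x y z : Finset TT}
    (hu : u ∈ C.K (v 0)) (hcell : C.SqCell u x y z) (hz : z.card ≤ N) :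
    phi v I u x * phi v I x z = phi v I u y * phi v I y z := by
  obtain ⟨n, hc⟩ := T.card_pos hu
  have hP : C.IsPart u := K_isPart T.part0 hu
  have hzc : z.card = n + 2 + 1 := by rw [hcell.card hP, hc]
  have hn : n + 2 < N := by omega
  have hg : gg Γ v u • v n = u := gg_spec T hu hc
  have two := fun {h1 h2 : Γ} (a : h1 • v n = v n) (b : h2 • v (n + 1) = v (n + 1)) =>
    phi_two T A hu hc hn a b
  generalize gg Γ v u = g at hg two
  have e : g⁻¹ • u = v n := by rw [inv_smul_eq_iff]; exact hg.symm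
  have hcell' : C.SqCell (v n) (g⁻¹ • x) (g⁻¹ • y) (g⁻¹ • z) := by
    have := T.smul_sqCell g⁻¹ hcell
    rwa [e] at this
  obtain ⟨h1, h2, k1, k2, hh1, hk1, hh2, hk2, hstd, htop, hrel⟩ := A.Sq n hn ⟨_, _, _, hcell'⟩
  obtain ⟨h, hh, hx, hy, hz'⟩ := T.T2 n _ _ _ _ _ _ hstd hcell'
  have ex : (g * (h * h1)) • v (n + 1) = x := by
    rw [mul_smul, mul_smul, hx, smul_inv_smul]
  have ey : (g * (h * k1)) • v (n + 1) = y := by
    rw [mul_smul, mul_smul, hy, smul_inv_smul]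
  have ez : (g * (h * h1) * h2) • v (n + 2) = z := by
    have : g * (h * h1) * h2 = g * (h * (h1 * h2)) := by group
    rw [this, mul_smul, mul_smul, hz', smul_inv_smul]
  have ez2 : (g * (h * k1) * k2) • v (n + 2) = z := by
    have : g * (h * k1) * k2 = g * (h * (k1 * k2)) := by group
    rw [this, mul_smul, mul_smul, htop, hz', smul_inv_smul]
  have hhh1 : (h * h1) • v n = v n := by rw [mul_smul, hh1, hh]
  have hhk1 : (h * k1) • v n = v n := by rw [mul_smul, hk1, hh]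
  have hzK : z ∈ C.K (v 0) := by rw [← ez]; exact T.smul_mem_K _ (T.mem_K _)
  have hgz : gg Γ v z • v (n + 2) = z := gg_spec T hzK hzc
  have L := two hhh1 hh2
  have R := two hhk1 hk2
  rw [ex, ez] at L
  rw [ey, ez2] at R
  rw [L, R]
  have ha : ((gg Γ v z)⁻¹ * g * (h * h1) * h2) • v (n + 2) = v (n + 2) := by
    have : (gg Γ v z)⁻¹ * g * (h * h1) * h2 = (gg Γ v z)⁻¹ * (g * (h * h1) * h2) := by group
    rw [this, mul_smul, ez, inv_smul_eq_iff]; exact hgz.symm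
  have hcc : ((h1 * h2)⁻¹ * (k1 * k2)) • v (n + 2) = v (n + 2) := by
    rw [mul_smul, htop, inv_smul_smul]
  have hac : (gg Γ v z)⁻¹ * g * (h * k1) * k2 =
      ((gg Γ v z)⁻¹ * g * (h * h1) * h2) * ((h1 * h2)⁻¹ * (k1 * k2)) := by group
  rw [hac, A.I_mul (n + 2) hn _ _ ha hcc, A.I_mul n (by omega) _ _ hh hh1,
    A.I_mul n (by omega) _ _ hh hk1]
  exact phi_flat_alg2 hrel

/-- the hexagon case of 4.3. -/
theorem phi_flat_hx (T : IsTower C Γ v) (A : IsAmalgam C v N π I)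
    {u x1 x2 y1 y2 z : Finset TT}
    (hu : u ∈ C.K (v 0)) (hcell : C.HxCell u x1 x2 y1 y2 z) (hz : z.card ≤ N) :
    phi v I u x1 * phi v I x1 x2 * phi v I x2 z = phi v I u y1 * phi v I y1 y2 * phi v I y2 z := by
  obtain ⟨n, hc⟩ := T.card_pos hu
  have hP : C.IsPart u := K_isPart T.part0 hu
  have hzc : z.card = n + 3 + 1 := by rw [hcell.card hP, hc]
  have hn : n + 3 < N := by omega
  have hg : gg Γ v u • v n = u := gg_spec T hu hc
  have three := fun {h1 h2 h3 : Γ} (a : h1 • v n = v n) (b : h2 • v (n + 1) = v (n + 1))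
    (c : h3 • v (n + 2) = v (n + 2)) => phi_three T A hu hc hn a b c
  generalize gg Γ v u = g at hg three
  have e : g⁻¹ • u = v n := by rw [inv_smul_eq_iff]; exact hg.symm
  have hcell' : C.HxCell (v n) (g⁻¹ • x1) (g⁻¹ • x2) (g⁻¹ • y1) (g⁻¹ • y2) (g⁻¹ • z) := by
    have := T.smul_hxCell g⁻¹ hcell
    rwa [e] at this
  obtain ⟨h1, h2, h3, k1, k2, k3, hh1, hk1, hh2, hk2, hh3, hk3, hstd, htop, hrel⟩ :=
    A.Hx n hn ⟨_, _, _, _, _, hcell'⟩
  obtain ⟨h, hh, hx1, hx2, hy1, hy2, hz'⟩ := T.T3 n _ _ _ _ _ _ _ _ _ _ hstd hcell'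
  have ex1 : (g * (h * h1)) • v (n + 1) = x1 := by
    rw [mul_smul, mul_smul, hx1, smul_inv_smul]
  have ey1 : (g * (h * k1)) • v (n + 1) = y1 := by
    rw [mul_smul, mul_smul, hy1, smul_inv_smul]
  have ex2 : (g * (h * h1) * h2) • v (n + 2) = x2 := by
    have : g * (h * h1) * h2 = g * (h * (h1 * h2)) := by group
    rw [this, mul_smul, mul_smul, hx2, smul_inv_smul]
  have ey2 : (g * (h * k1) * k2) • v (n + 2) = y2 := by
    have : g * (h * k1) * k2 = g * (h * (k1 * k2)) := by group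
    rw [this, mul_smul, mul_smul, hy2, smul_inv_smul]
  have ez : (g * (h * h1) * h2 * h3) • v (n + 3) = z := by
    have : g * (h * h1) * h2 * h3 = g * (h * (h1 * h2 * h3)) := by group
    rw [this, mul_smul, mul_smul, hz', smul_inv_smul]
  have ez2 : (g * (h * k1) * k2 * k3) • v (n + 3) = z := by
    have : g * (h * k1) * k2 * k3 = g * (h * (k1 * k2 * k3)) := by group
    rw [this, mul_smul, mul_smul, htop, hz', smul_inv_smul]
  have hhh1 : (h * h1) • v n = v n := by rw [mul_smul, hh1, hh]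
  have hhk1 : (h * k1) • v n = v n := by rw [mul_smul, hk1, hh]
  have hzK : z ∈ C.K (v 0) := by rw [← ez]; exact T.smul_mem_K _ (T.mem_K _)
  have hgz : gg Γ v z • v (n + 3) = z := gg_spec T hzK hzc
  have L := three hhh1 hh2 hh3
  have R := three hhk1 hk2 hk3
  rw [ex1, ex2, ez] at L
  rw [ey1, ey2, ez2] at R
  rw [L, R]
  have ha : ((gg Γ v z)⁻¹ * g * (h * h1) * h2 * h3) • v (n + 3) = v (n + 3) := by
    have : (gg Γ v z)⁻¹ * g * (h * h1) * h2 * h3 =
        (gg Γ v z)⁻¹ * (g * (h * h1) * h2 * h3) := by group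
    rw [this, mul_smul, ez, inv_smul_eq_iff]; exact hgz.symm
  have hcc : ((h1 * h2 * h3)⁻¹ * (k1 * k2 * k3)) • v (n + 3) = v (n + 3) := by
    rw [mul_smul, htop, inv_smul_smul]
  have hac : (gg Γ v z)⁻¹ * g * (h * k1) * k2 * k3 =
      ((gg Γ v z)⁻¹ * g * (h * h1) * h2 * h3) * ((h1 * h2 * h3)⁻¹ * (k1 * k2 * k3)) := by group
  rw [hac, A.I_mul (n + 3) hn _ _ ha hcc, A.I_mul n (by omega) _ _ hh hh1,
    A.I_mul n (by omega) _ _ hh hk1]
  exact phi_flat_alg3 hrel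

/-- **4.3**.  Square cell `(u;x,y,z)`, `u ∈ K`, `|u| = n+1`, `|z| = n+3 ≤ N`.  `g := g_u`.  `g⁻¹ • cell` is a square cell at `v n`
(`smul_sqCell`, `gg_spec`), so (Sq_n) provides `h1,h2,k1,k2` and the standard cell, and (T2) provides `h ∈ H_n` carrying the standard cell to
`g⁻¹ • cell`: `x = (g*(h*h1)) • v (n+1)`, `z = (g*(h*h1)*h2) • v (n+2) = (g*(h*k1)*k2) • v (n+2)`, `y = (g*(h*k1)) • v (n+1)`.
`phi_two` with `(h*h1,h2)` and `(h*k1,k2)`: the two holonomies are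
`I n (h h1) I (n+1) h2 (I (n+2) a)⁻¹` and `I n (h k1) I (n+1) k2 (I (n+2) (a c))⁻¹`, `a = g_z⁻¹ g h h1 h2 ∈ H_{n+2}`,
`c = (h1 h2)⁻¹ (k1 k2) ∈ H_{n+2}`.  Equal by `I_mul` and the relation (Sq_n).   Hexagons: the same with `phi_three`, (T3), (Hx_n). -/
theorem phi_locFlat (T : IsTower C Γ v) (A : IsAmalgam C v N π I) :
    C.Flat (v 0) (phi v I) N :=
  ⟨fun _ hu _ _ _ hcell hz => phi_flat_sq T A hu hcell hz,
   fun _ hu _ _ _ _ _ hcell hz => phi_flat_hx T A hu hcell hz⟩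

end CutSys
end Claimed.Agent.R152.B
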