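import Claimed.Agent.R152.B.F.Final
import Claimed.Agent.R152.B.FpCoprodI

/-!
# Row 152, module B, sec. 4: COROLLARY F', the construction (everything except the choice of the cells)

`fp_of_tower_core` is `fp_of_tower` with the two statements `exists_sq_elts`, `exists_hx_elts` as hypotheses.
-/

open Pointwise
open scoped Classical

namespace Claimed.Agent.R152.B
namespace CutSys

universe u v w
variable {TT : Type u} {X : Type v} {C : CutSys TT X}
variable {Γ : Type w} [Group Γ] [MulAction Γ TT] {v : ℕ → Finset TT}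

variable (Γ v) in
/-- the stabilisers `H_k`, `k < N`. -/
abbrev twH (N : ℕ) (k : Fin N) : Type w := MulAction.stabilizer Γ (v k)

variable (Γ v) in
/-- `λ : F = *_k H_k →* Γ`. -/
noncomputable def twLam (N : ℕ) : Monoid.CoprodI (twH Γ v N) →* Γ :=
  Monoid.CoprodI.lift (fun k => (MulAction.stabilizer Γ (v k)).subtype)

variable (v) in
open Classical in
/-- `J n h`. -/
noncomputable def twJ (N n : ℕ) (h : Γ) : Monoid.CoprodI (twH Γ v N) :=
  if hn : n < N ∧ h • v n = v n then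
    Monoid.CoprodI.of (M := twH Γ v N) (i := ⟨n, hn.1⟩) ⟨h, hn.2⟩
  else 1

theorem twJ_eq {N n : ℕ} {h : Γ} (hn : n < N) (hh : h • v n = v n) :
    twJ v N n h = Monoid.CoprodI.of (M := twH Γ v N) (i := ⟨n, hn⟩) ⟨h, hh⟩ :=
  dif_pos ⟨hn, hh⟩

theorem twLam_twJ {N n : ℕ} {h : Γ} (hn : n < N) (hh : h • v n = v n) :
    twLam Γ v N (twJ v N n h) = h := by
  rw [twJ_eq hn hh, twLam, Monoid.CoprodI.lift_of]
  rfl

theorem twJ_mul {N n : ℕ} {h h' : Γ} (hn : n < N) (hh : h • v n = v n) (hh' : h' • v n = v n) :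
    twJ v N n (h * h') = twJ v N n h * twJ v N n h' := by
  have h2 : (h * h') • v n = v n := by rw [mul_smul, hh', hh]
  rw [twJ_eq hn hh, twJ_eq hn hh', twJ_eq hn h2, ← map_mul]
  rfl

theorem twJ_one {N n : ℕ} (hn : n < N) : twJ v N n (1 : Γ) = 1 := by
  have h1 : (1 : Γ) • v n = v n := one_smul _ _
  have h := twJ_mul (v := v) hn h1 h1
  rw [mul_one] at h
  exact (mul_eq_left.1 h.symm)

theorem twJ_inv {N n : ℕ} {h : Γ} (hn : n < N) (hh : h • v n = v n) :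
    twJ v N n h⁻¹ = (twJ v N n h)⁻¹ := by
  have h1 : h⁻¹ • v n = v n := by rw [inv_smul_eq_iff, hh]
  have h2 := twJ_mul (v := v) hn hh h1
  rw [mul_inv_cancel, twJ_one hn] at h2
  exact (eq_inv_of_mul_eq_one_right h2.symm)

variable (C v) in
/-- the conclusion of `exists_sq_elts`. -/
def SqElts (n : ℕ) (h1 h2 k1 k2 : Γ) : Prop :=
  h1 • v n = v n ∧ k1 • v n = v n ∧
    h2 • v (n + 1) = v (n + 1) ∧ k2 • v (n + 1) = v (n + 1) ∧
    C.SqCell (v n) (h1 • v (n + 1)) (k1 • v (n + 1)) ((h1 * h2) • v (n + 2)) ∧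
    (k1 * k2) • v (n + 2) = (h1 * h2) • v (n + 2)

variable (C v) in
/-- the conclusion of `exists_hx_elts`. -/
def HxElts (n : ℕ) (h1 h2 h3 k1 k2 k3 : Γ) : Prop :=
  h1 • v n = v n ∧ k1 • v n = v n ∧
    h2 • v (n + 1) = v (n + 1) ∧ k2 • v (n + 1) = v (n + 1) ∧
    h3 • v (n + 2) = v (n + 2) ∧ k3 • v (n + 2) = v (n + 2) ∧
    C.HxCell (v n) (h1 • v (n + 1)) ((h1 * h2) • v (n + 2)) (k1 • v (n + 1))
      ((k1 * k2) • v (n + 2)) ((h1 * h2 * h3) • v (n + 3)) ∧
    (k1 * k2 * k3) • v (n + 3) = (h1 * h2 * h3) • v (n + 3)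

variable (v) in
/-- the square relator. -/
noncomputable def twSq (N n : ℕ) (h1 h2 k1 k2 : Γ) : Monoid.CoprodI (twH Γ v N) :=
  twJ v N n h1 * twJ v N (n + 1) h2 * twJ v N (n + 2) ((h1 * h2)⁻¹ * (k1 * k2)) *
    (twJ v N n k1 * twJ v N (n + 1) k2)⁻¹

variable (v) in
/-- the hexagon relator. -/
noncomputable def twHx (N n : ℕ) (h1 h2 h3 k1 k2 k3 : Γ) : Monoid.CoprodI (twH Γ v N) :=
  twJ v N n h1 * twJ v N (n + 1) h2 * twJ v N (n + 2) h3 *
      twJ v N (n + 3) ((h1 * h2 * h3)⁻¹ * (k1 * k2 * k3)) *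
    (twJ v N n k1 * twJ v N (n + 1) k2 * twJ v N (n + 2) k3)⁻¹

theorem tw_stab_of_eq {a b : Γ} {x : Finset TT} (h : b • x = a • x) : (a⁻¹ * b) • x = x := by
  rw [mul_smul, h, inv_smul_smul]

theorem twLam_twSq {N n : ℕ} (hn : n + 2 < N) {h1 h2 k1 k2 : Γ} (h : SqElts C v n h1 h2 k1 k2) :
    twLam Γ v N (twSq v N n h1 h2 k1 k2) = 1 := by
  obtain ⟨a1, b1, a2, b2, -, e⟩ := h
  unfold twSq
  simp only [map_mul, map_inv]
  rw [twLam_twJ (by omega) a1, twLam_twJ (by omega) a2, twLam_twJ (by omega) b1,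
    twLam_twJ (by omega) b2, twLam_twJ hn (tw_stab_of_eq e)]
  group

theorem twLam_twHx {N n : ℕ} (hn : n + 3 < N) {h1 h2 h3 k1 k2 k3 : Γ}
    (h : HxElts C v n h1 h2 h3 k1 k2 k3) :
    twLam Γ v N (twHx v N n h1 h2 h3 k1 k2 k3) = 1 := by
  obtain ⟨a1, b1, a2, b2, a3, b3, -, e⟩ := h
  unfold twHx
  simp only [map_mul, map_inv]
  rw [twLam_twJ (by omega) a1, twLam_twJ (by omega) a2, twLam_twJ (by omega) a3,
    twLam_twJ (by omega) b1, twLam_twJ (by omega) b2, twLam_twJ (by omega) b3,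
    twLam_twJ hn (tw_stab_of_eq e)]
  group

/-- The abstract form: any finite set of relators in `ker λ` which forces (Id), (Sq), (Hx). -/
theorem fp_of_rel (T : IsTower C Γ v) {N : ℕ} (hN : 9 ≤ N)
    (hH : ∀ n < N, Group.IsFinitelyPresented (MulAction.stabilizer Γ (v n)))
    (Rel : Set (Monoid.CoprodI (twH Γ v N))) (hfin : Rel.Finite)
    (hker : ∀ r ∈ Rel, twLam Γ v N r = 1)
    (hId : ∀ n, n + 1 < N → ∀ e : Γ, e • v n = v n → e • v (n + 1) = v (n + 1) →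
      twJ v N n e * (twJ v N (n + 1) e)⁻¹ ∈ Subgroup.normalClosure Rel)
    (hSq : ∀ n, n + 2 < N → (∃ x y z, C.SqCell (v n) x y z) →
      ∃ h1 h2 k1 k2 : Γ, SqElts C v n h1 h2 k1 k2 ∧
        twSq v N n h1 h2 k1 k2 ∈ Subgroup.normalClosure Rel)
    (hHx : ∀ n, n + 3 < N → (∃ x1 x2 y1 y2 z, C.HxCell (v n) x1 x2 y1 y2 z) →
      ∃ h1 h2 h3 k1 k2 k3 : Γ, HxElts C v n h1 h2 h3 k1 k2 k3 ∧
        twHx v N n h1 h2 h3 k1 k2 k3 ∈ Subgroup.normalClosure Rel) :
    Group.IsFinitelyPresented Γ := by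
  have : ∀ k : Fin N, Group.IsFinitelyPresented (twH Γ v N k) := fun k => hH k k.2
  have hP : Group.IsFinitelyPresented (Monoid.CoprodI (twH Γ v N) ⧸ Subgroup.normalClosure Rel) :=
    fp_coprodI_quot (twH Γ v N) Rel hfin
  have hle : Subgroup.normalClosure Rel ≤ (twLam Γ v N).ker :=
    Subgroup.normalClosure_le_normal (fun r hr => MonoidHom.mem_ker.2 (hker r hr))
  set π : (Monoid.CoprodI (twH Γ v N) ⧸ Subgroup.normalClosure Rel) →* Γ :=
    QuotientGroup.lift (Subgroup.normalClosure Rel) (twLam Γ v N) hle with hπ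
  set I : ℕ → Γ → (Monoid.CoprodI (twH Γ v N) ⧸ Subgroup.normalClosure Rel) :=
    fun n h => QuotientGroup.mk (twJ v N n h) with hI
  have key : ∀ a b : Monoid.CoprodI (twH Γ v N), a * b⁻¹ ∈ Subgroup.normalClosure Rel →
      (QuotientGroup.mk a : Monoid.CoprodI (twH Γ v N) ⧸ Subgroup.normalClosure Rel)
        = QuotientGroup.mk b := by
    intro a b hab
    have h1 := (QuotientGroup.eq_one_iff (N := Subgroup.normalClosure Rel) (a * b⁻¹)).2 hab
    rw [QuotientGroup.mk_mul, QuotientGroup.mk_inv] at h1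
    exact mul_inv_eq_one.1 h1
  have A : IsAmalgam C v N π I :=
    { I_mul := by
        intro n hn h h' hh hh'
        simp only [hI]
        rw [twJ_mul hn hh hh', QuotientGroup.mk_mul]
      π_I := by
        intro n hn h hh
        simp only [hI, hπ, QuotientGroup.lift_mk]
        exact twLam_twJ hn hh
      gen := by
        intro Q hQ
        rw [eq_top_iff]
        intro p hp
        clear hp
        obtain ⟨f, rfl⟩ := QuotientGroup.mk_surjective p
        induction f using Monoid.CoprodI.induction_on with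
        | one => exact Q.one_mem
        | @of i m =>
          have h1 := hQ i.1 i.2 m.1 m.2
          simp only [hI] at h1
          rw [twJ_eq i.2 m.2] at h1
          exact h1
        | mul x y hx hy =>
          rw [QuotientGroup.mk_mul]
          exact Q.mul_mem hx hy
      Id := by
        intro n hn e he he'
        exact key _ _ (hId n hn e he he')
      Sq := by
        intro n hn hc
        obtain ⟨h1, h2, k1, k2, ⟨a1, b1, a2, b2, c, e⟩, hr⟩ := hSq n hn hc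
        refine ⟨h1, h2, k1, k2, a1, b1, a2, b2, c, e, ?_⟩
        have := key _ _ hr
        simpa only [hI, QuotientGroup.mk_mul] using this
      Hx := by
        intro n hn hc
        obtain ⟨h1, h2, h3, k1, k2, k3, ⟨a1, b1, a2, b2, a3, b3, c, e⟩, hr⟩ := hHx n hn hc
        refine ⟨h1, h2, h3, k1, k2, k3, a1, b1, a2, b2, a3, b3, c, e, ?_⟩
        have := key _ _ hr
        simpa only [hI, QuotientGroup.mk_mul] using this }
  exact Group.IsFinitelyPresented.equiv (MulEquiv.ofBijective π (theoremF T hN A))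

/-- (Id) for all of `E_n` from (Id) for a generating set. -/
theorem tw_Id_of_gen {N n : ℕ} (hn : n + 1 < N) (Nrm : Subgroup (Monoid.CoprodI (twH Γ v N)))
    [Nrm.Normal] (S : Set Γ)
    (hS : Subgroup.closure S = MulAction.stabilizer Γ (v n) ⊓ MulAction.stabilizer Γ (v (n + 1)))
    (hrel : ∀ e ∈ S, twJ v N n e * (twJ v N (n + 1) e)⁻¹ ∈ Nrm)
    (e : Γ) (he : e • v n = v n) (he' : e • v (n + 1) = v (n + 1)) :
    twJ v N n e * (twJ v N (n + 1) e)⁻¹ ∈ Nrm := by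
  have hn0 : n < N := by omega
  have hmem : ∀ x, x ∈ Subgroup.closure S → x • v n = v n ∧ x • v (n + 1) = v (n + 1) := by
    intro x hx
    rw [hS] at hx
    exact ⟨hx.1, hx.2⟩
  have hiff : ∀ a b : Monoid.CoprodI (twH Γ v N), a * b⁻¹ ∈ Nrm ↔
      (QuotientGroup.mk a : Monoid.CoprodI (twH Γ v N) ⧸ Nrm) = QuotientGroup.mk b := by
    intro a b
    rw [← QuotientGroup.eq_one_iff (N := Nrm), QuotientGroup.mk_mul, QuotientGroup.mk_inv,
      mul_inv_eq_one]
  have hx : e ∈ Subgroup.closure S := by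
    rw [hS]
    exact ⟨he, he'⟩
  rw [hiff]
  induction hx using Subgroup.closure_induction with
  | mem x hx => exact (hiff _ _).1 (hrel x hx)
  | one => rw [twJ_one hn0, twJ_one hn]
  | mul x y hx hy ihx ihy =>
    rw [twJ_mul hn0 (hmem x hx).1 (hmem y hy).1, twJ_mul hn (hmem x hx).2 (hmem y hy).2,
      QuotientGroup.mk_mul, QuotientGroup.mk_mul, ihx (hmem x hx).1 (hmem x hx).2,
      ihy (hmem y hy).1 (hmem y hy).2]
  | inv x hx ihx =>
    rw [twJ_inv hn0 (hmem x hx).1, twJ_inv hn (hmem x hx).2, QuotientGroup.mk_inv,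
      QuotientGroup.mk_inv, ihx (hmem x hx).1 (hmem x hx).2]

/-- `fp_of_tower` with `exists_sq_elts`, `exists_hx_elts` as hypotheses. -/
theorem fp_of_tower_core (T : IsTower C Γ v) {N : ℕ} (hN : 9 ≤ N)
    (hH : ∀ n < N, Group.IsFinitelyPresented (MulAction.stabilizer Γ (v n)))
    (hE : ∀ n, n + 1 < N →
      (MulAction.stabilizer Γ (v n) ⊓ MulAction.stabilizer Γ (v (n + 1))).FG)
    (hsq : ∀ n, (∃ x y z, C.SqCell (v n) x y z) → ∃ h1 h2 k1 k2 : Γ, SqElts C v n h1 h2 k1 k2)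
    (hhx : ∀ n, (∃ x1 x2 y1 y2 z, C.HxCell (v n) x1 x2 y1 y2 z) →
      ∃ h1 h2 h3 k1 k2 k3 : Γ, HxElts C v n h1 h2 h3 k1 k2 k3) :
    Group.IsFinitelyPresented Γ := by
  classical
  -- generators of `E_n`
  have hS : ∀ n, ∃ S : Set Γ, S.Finite ∧ (n + 1 < N → Subgroup.closure S =
      MulAction.stabilizer Γ (v n) ⊓ MulAction.stabilizer Γ (v (n + 1))) := by
    intro n
    by_cases hn : n + 1 < N
    · obtain ⟨S, hS, hfin⟩ := (Subgroup.fg_iff _).1 (hE n hn)
      exact ⟨S, hfin, fun _ => hS⟩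
    · exact ⟨∅, Set.finite_empty, fun h => absurd h hn⟩
  choose S hSfin hS using hS
  -- the chosen cells
  have hsq' : ∀ n, ∃ h1 h2 k1 k2 : Γ, (∃ x y z, C.SqCell (v n) x y z) →
      SqElts C v n h1 h2 k1 k2 := by
    intro n
    by_cases hc : ∃ x y z, C.SqCell (v n) x y z
    · obtain ⟨h1, h2, k1, k2, h⟩ := hsq n hc
      exact ⟨h1, h2, k1, k2, fun _ => h⟩
    · exact ⟨1, 1, 1, 1, fun h => absurd h hc⟩
  choose sh1 sh2 sk1 sk2 hsq' using hsq'
  have hhx' : ∀ n, ∃ h1 h2 h3 k1 k2 k3 : Γ, (∃ x1 x2 y1 y2 z, C.HxCell (v n) x1 x2 y1 y2 z) →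
      HxElts C v n h1 h2 h3 k1 k2 k3 := by
    intro n
    by_cases hc : ∃ x1 x2 y1 y2 z, C.HxCell (v n) x1 x2 y1 y2 z
    · obtain ⟨h1, h2, h3, k1, k2, k3, h⟩ := hhx n hc
      exact ⟨h1, h2, h3, k1, k2, k3, fun _ => h⟩
    · exact ⟨1, 1, 1, 1, 1, 1, fun h => absurd h hc⟩
  choose xh1 xh2 xh3 xk1 xk2 xk3 hhx' using hhx'
  -- the relators
  set R1 : Set (Monoid.CoprodI (twH Γ v N)) :=
    ⋃ n ∈ {n : ℕ | n + 1 < N}, (fun e => twJ v N n e * (twJ v N (n + 1) e)⁻¹) '' S n with hR1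
  set R2 : Set (Monoid.CoprodI (twH Γ v N)) :=
    (fun n => twSq v N n (sh1 n) (sh2 n) (sk1 n) (sk2 n)) ''
      {n : ℕ | n + 2 < N ∧ ∃ x y z, C.SqCell (v n) x y z} with hR2
  set R3 : Set (Monoid.CoprodI (twH Γ v N)) :=
    (fun n => twHx v N n (xh1 n) (xh2 n) (xh3 n) (xk1 n) (xk2 n) (xk3 n)) ''
      {n : ℕ | n + 3 < N ∧ ∃ x1 x2 y1 y2 z, C.HxCell (v n) x1 x2 y1 y2 z} with hR3
  have hfinN : ∀ s : Set ℕ, (∀ n ∈ s, n < N) → s.Finite :=
    fun s hs => (Set.finite_lt_nat N).subset hs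
  have f1 : R1.Finite :=
    Set.Finite.biUnion (hfinN _ (fun n (hn : n + 1 < N) => by omega))
      (fun n _ => (hSfin n).image _)
  have f2 : R2.Finite := (hfinN _ (fun n hn => by have := hn.1; omega)).image _
  have f3 : R3.Finite := (hfinN _ (fun n hn => by have := hn.1; omega)).image _
  refine fp_of_rel T hN hH (R1 ∪ R2 ∪ R3) ((f1.union f2).union f3) ?_ ?_ ?_ ?_
  · rintro r ((hr | hr) | hr)
    · simp only [hR1, Set.mem_iUnion, Set.mem_image, Set.mem_ofPred_eq] at hr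
      obtain ⟨n, hn, e, he, rfl⟩ := hr
      have hmem : e ∈ MulAction.stabilizer Γ (v n) ⊓ MulAction.stabilizer Γ (v (n + 1)) := by
        rw [← hS n hn]
        exact Subgroup.subset_closure he
      rw [map_mul, map_inv, twLam_twJ (by omega) hmem.1, twLam_twJ hn hmem.2, mul_inv_cancel]
    · obtain ⟨n, ⟨hn, hc⟩, rfl⟩ := hr
      exact twLam_twSq hn (hsq' n hc)
    · obtain ⟨n, ⟨hn, hc⟩, rfl⟩ := hr
      exact twLam_twHx hn (hhx' n hc)
  · intro n hn e he he'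
    refine tw_Id_of_gen hn _ (S n) (hS n hn) ?_ e he he'
    intro x hx
    refine Subgroup.subset_normalClosure (Or.inl (Or.inl ?_))
    simp only [hR1, Set.mem_iUnion, Set.mem_image, Set.mem_ofPred_eq]
    exact ⟨n, hn, x, hx, rfl⟩
  · intro n hn hc
    exact ⟨sh1 n, sh2 n, sk1 n, sk2 n, hsq' n hc,
      Subgroup.subset_normalClosure (Or.inl (Or.inr ⟨n, ⟨hn, hc⟩, rfl⟩))⟩
  · intro n hn hc
    exact ⟨xh1 n, xh2 n, xh3 n, xk1 n, xk2 n, xk3 n, hhx' n hc,
      Subgroup.subset_normalClosure (Or.inr ⟨n, ⟨hn, hc⟩, rfl⟩)⟩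

end CutSys
end Claimed.Agent.R152.B
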