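import Claimed.Agent.R152.B.F.Final
import Claimed.Agent.R152.B.FpCoprodI
import Claimed.Agent.R152.B.F.FpAux

/-!
# Row 152, module B, sec. 4: COROLLARY F' (finite presentability from the action)

Black boxes: `F/Final.lean` (`theoremF`), `FpCoprodI.lean` (`fp_coprodI_quotient`), `F/Setup.lean`.
Statement FROZEN; auxiliary lemmas and definitions welcome.
-/

open Pointwise
open scoped Classical

namespace Claimed.Agent.R152.B
namespace CutSys

universe u v w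
variable {TT : Type u} {X : Type v} {C : CutSys TT X}
variable {Γ : Type w} [Group Γ] [MulAction Γ TT] {v : ℕ → Finset TT}

/-- (T1) at a translate of `v n`. -/
theorem fp_step (T : IsTower C Γ v) (n : ℕ) (g : Γ) {x y : Finset TT} (hg : g • v n = x)
    (he : C.Exp x y) : ∃ h : Γ, h • v n = v n ∧ (g * h) • v (n + 1) = y := by
  have h1 : C.Exp (v n) (g⁻¹ • y) := by
    have := T.smul_exp g⁻¹ he
    rwa [← hg, inv_smul_smul] at this
  obtain ⟨h, hh1, hh2⟩ := T.T1 n _ h1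
  exact ⟨h, hh1, by rw [mul_smul, hh2, smul_inv_smul]⟩

/-- the vertices of the tower are partitions. -/
theorem fp_isPart (T : IsTower C Γ v) (n : ℕ) : C.IsPart (v n) :=
  K_isPart T.part0 (T.mem_K n)

/-- A square cell at `v n` written with stabiliser elements ((T1) twice on each side, see the docstring of `fp_of_tower`). -/
theorem exists_sq_elts (T : IsTower C Γ v) (n : ℕ) (h : ∃ x y z, C.SqCell (v n) x y z) :
    ∃ h1 h2 k1 k2 : Γ, h1 • v n = v n ∧ k1 • v n = v n ∧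
      h2 • v (n + 1) = v (n + 1) ∧ k2 • v (n + 1) = v (n + 1) ∧
      C.SqCell (v n) (h1 • v (n + 1)) (k1 • v (n + 1)) ((h1 * h2) • v (n + 2)) ∧
      (k1 * k2) • v (n + 2) = (h1 * h2) • v (n + 2) := by
  obtain ⟨x, y, z, hc⟩ := h
  obtain ⟨e1, e2, e3, e4⟩ := hc.exp (fp_isPart T n)
  obtain ⟨h1, a1, a2⟩ := T.T1 n x e1
  obtain ⟨h2, a3, a4⟩ := fp_step T (n + 1) h1 a2 e2
  obtain ⟨k1, b1, b2⟩ := T.T1 n y e3
  obtain ⟨k2, b3, b4⟩ := fp_step T (n + 1) k1 b2 e4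
  refine ⟨h1, h2, k1, k2, a1, b1, a3, b3, ?_, ?_⟩
  · rw [a2, b2, a4]
    exact hc
  · rw [a4, b4]

/-- A hexagon cell at `v n` written with stabiliser elements ((T1) three times on each side). -/
theorem exists_hx_elts (T : IsTower C Γ v) (n : ℕ)
    (h : ∃ x1 x2 y1 y2 z, C.HxCell (v n) x1 x2 y1 y2 z) :
    ∃ h1 h2 h3 k1 k2 k3 : Γ, h1 • v n = v n ∧ k1 • v n = v n ∧
      h2 • v (n + 1) = v (n + 1) ∧ k2 • v (n + 1) = v (n + 1) ∧
      h3 • v (n + 2) = v (n + 2) ∧ k3 • v (n + 2) = v (n + 2) ∧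
      C.HxCell (v n) (h1 • v (n + 1)) ((h1 * h2) • v (n + 2)) (k1 • v (n + 1))
        ((k1 * k2) • v (n + 2)) ((h1 * h2 * h3) • v (n + 3)) ∧
      (k1 * k2 * k3) • v (n + 3) = (h1 * h2 * h3) • v (n + 3) := by
  obtain ⟨x1, x2, y1, y2, z, hc⟩ := h
  obtain ⟨e1, e2, e3, e4, e5, e6⟩ := hc.exp (fp_isPart T n)
  obtain ⟨h1, a1, a2⟩ := T.T1 n x1 e1
  obtain ⟨h2, a3, a4⟩ := fp_step T (n + 1) h1 a2 e2
  obtain ⟨h3, a5, a6⟩ := fp_step T (n + 2) (h1 * h2) a4 e3
  obtain ⟨k1, b1, b2⟩ := T.T1 n y1 e4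
  obtain ⟨k2, b3, b4⟩ := fp_step T (n + 1) k1 b2 e5
  obtain ⟨k3, b5, b6⟩ := fp_step T (n + 2) (k1 * k2) b4 e6
  refine ⟨h1, h2, h3, k1, k2, k3, a1, b1, a3, b3, a5, b5, ?_, ?_⟩
  · rw [a2, b2, a4, b4, a6]
    exact hc
  · rw [a6, b6]

/-- **COROLLARY F'.**  If the stabilisers `H_n` (`n < N`) are f.p. and the `E_n = H_n ⊓ H_{n+1}` are f.g., `N ≥ 9`, then `Γ` is f.p.
Proof.  `H k := stabilizer Γ (v k)` for `k : Fin N`, `F := Monoid.CoprodI H`, `λ : F →* Γ` the lift of the inclusions.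
`J n h : F := if n < N and h ∈ H_n then of ⟨n,_⟩ ⟨h,_⟩ else 1`.   Finite set `Rel ⊆ ker λ`:
 * `J n e * (J (n+1) e)⁻¹` for `n+1 < N`, `e` in a finite generating set of `E_n`;
 * for `n+2 < N`, if there is a square cell at `v n`: pick one; by (T1) (twice on each side, see below) it is
   `(v n; h1 • v (n+1), k1 • v (n+1); (h1 h2) • v (n+2) = (k1 k2) • v (n+2))`; relator
   `J n h1 * J (n+1) h2 * J (n+2) ((h1 h2)⁻¹ (k1 k2)) * (J n k1 * J (n+1) k2)⁻¹`;
 * the same for one hexagon cell, `n+3 < N`.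
(T1) twice: `Exp (v n) x` gives `h1 ∈ H_n`, `h1 • v (n+1) = x`; `Exp x z` gives `Exp (v (n+1)) (h1⁻¹ • z)` (`smul_exp`), so `h2 ∈ H_{n+1}` with
`h2 • v (n+2) = h1⁻¹ • z`.   The edges of a cell: `SqCell.exp`, `HxCell.exp`.
`P := F ⧸ normalClosure Rel` is f.p. (`fp_coprodI_quotient`), `π := QuotientGroup.lift`, `I n h := mk (J n h)`.
`IsAmalgam`: `I_mul`, `π_I` clear; `gen`: `F` is generated by the `of`'s (`Monoid.CoprodI.induction_on` or `lift` uniqueness);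
(Id) for all `e ∈ E_n`: `{e ∈ E_n | I n e = I (n+1) e}` is a subgroup containing the generators (`Subgroup.closure_induction`).
Finally `IsFinitelyPresented.equiv (MulEquiv.ofBijective π (theoremF ..))`. -/
theorem fp_of_tower (T : IsTower C Γ v) {N : ℕ} (hN : 9 ≤ N)
    (hH : ∀ n < N, Group.IsFinitelyPresented (MulAction.stabilizer Γ (v n)))
    (hE : ∀ n, n + 1 < N →
      (MulAction.stabilizer Γ (v n) ⊓ MulAction.stabilizer Γ (v (n + 1))).FG) :
    Group.IsFinitelyPresented Γ := by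
  exact fp_of_tower_core T hN hH hE (exists_sq_elts T) (exists_hx_elts T)

end CutSys
end Claimed.Agent.R152.B
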