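import Claimed.Agent.R152.B.F.Setup

/-!
# Row 152, module B, sec. 4.1, 4.2: the cocycle `phi`

Black boxes: `F/Setup.lean`, `Cut/Part.lean`.   Statements FROZEN; auxiliary lemmas welcome.
Notation: `H_n = {h | h • v n = v n}`, `g_u = gg Γ v u`.
-/

open Pointwise
open scoped Classical

namespace Claimed.Agent.R152.B
namespace CutSys

universe u v w w'
variable {TT : Type u} {X : Type v} {C : CutSys TT X}
variable {Γ : Type w} [Group Γ] [MulAction Γ TT] {v : ℕ → Finset TT}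
variable {P : Type w'} [Group P] {N : ℕ} {π : P →* Γ} {I : ℕ → Γ → P}

/-- `phi` with the heights made explicit. -/
theorem phi_aux_unfold {x x' : Finset TT} {n : ℕ} (hc : x.card = n + 1) :
    phi v I x x' = I n (hh Γ v x x') *
      (I (n + 1) ((gg Γ v x')⁻¹ * gg Γ v x * hh Γ v x x'))⁻¹ := by
  have e : x.card - 1 = n := by omega
  unfold phi
  rw [e]

/-- `g_{x'}⁻¹ a` fixes `v m` as soon as `a • v m = x'`. -/
theorem phi_aux_fix (T : IsTower C Γ v) {x : Finset TT} (hx : x ∈ C.K (v 0)) {n : ℕ}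
    (hc : x.card = n + 1) {a : Γ} (ha : a • v n = x) : ((gg Γ v x)⁻¹ * a) • v n = v n := by
  rw [mul_smul, ha, inv_smul_eq_iff, gg_spec T hx hc]

/-- **4.1**  The formula for `phi` holds for EVERY `h' ∈ H_n` with `g_u h' • v (n+1) = u'`.
(`h' = h e` with `h = hh u u'`, `e = h⁻¹ h' ∈ H_n ∩ H_{n+1}`; `k' = k e`; use `I_mul` and (Id).) -/
theorem phi_eq (T : IsTower C Γ v) (A : IsAmalgam C v N π I) {x x' : Finset TT}
    (hx : x ∈ C.K (v 0)) {n : ℕ} (hc : x.card = n + 1) (hn : n + 1 < N) (he : C.Exp x x')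
    {h' : Γ} (h1 : h' • v n = v n) (h2 : (gg Γ v x * h') • v (n + 1) = x') :
    phi v I x x' = I n h' * (I (n + 1) ((gg Γ v x')⁻¹ * gg Γ v x * h'))⁻¹ := by
  obtain ⟨k1, k2⟩ := hh_spec T hx hc he
  have hx' : x' ∈ C.K (v 0) := K_exp hx he
  have hc' : x'.card = n + 1 + 1 := by rw [he.card, hc]
  set g := gg Γ v x with hg
  set g' := gg Γ v x' with hg'
  set h := hh Γ v x x' with hh0
  have e1 : (h⁻¹ * h') • v n = v n := by
    rw [mul_smul, h1, inv_smul_eq_iff, k1]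
  have e2 : (h⁻¹ * h') • v (n + 1) = v (n + 1) := by
    rw [mul_smul, inv_smul_eq_iff]
    have : g • (h' • v (n + 1)) = g • (h • v (n + 1)) := by
      rw [← mul_smul, ← mul_smul, h2, k2]
    exact smul_left_cancel g this
  have kf : (g'⁻¹ * g * h) • v (n + 1) = v (n + 1) := by
    rw [mul_assoc]
    exact phi_aux_fix T hx' hc' k2
  have i1 : I n h' = I n h * I n (h⁻¹ * h') := by
    rw [← A.I_mul n (by omega) h (h⁻¹ * h') k1 e1, mul_inv_cancel_left]
  have i2 : I (n + 1) (g'⁻¹ * g * h') = I (n + 1) (g'⁻¹ * g * h) * I (n + 1) (h⁻¹ * h') := by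
    rw [← A.I_mul (n + 1) hn _ _ kf e2]
    congr 1
    group
  rw [phi_aux_unfold hc, i1, i2, A.Id n hn _ e1 e2, mul_inv_rev,
    mul_assoc (I n h) (I (n + 1) (h⁻¹ * h')), mul_inv_cancel_left]

/-- 4.1: `π (phi u u') = g_u⁻¹ g_u'`. -/
theorem π_phi (T : IsTower C Γ v) (A : IsAmalgam C v N π I) {x x' : Finset TT}
    (hx : x ∈ C.K (v 0)) (hc : x'.card ≤ N) (he : C.Exp x x') :
    π (phi v I x x') = (gg Γ v x)⁻¹ * gg Γ v x' := by
  obtain ⟨n, hn⟩ := T.card_pos hx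
  obtain ⟨k1, k2⟩ := hh_spec T hx hn he
  have hx' : x' ∈ C.K (v 0) := K_exp hx he
  have hc' : x'.card = n + 1 + 1 := by rw [he.card, hn]
  have kf : ((gg Γ v x')⁻¹ * gg Γ v x * hh Γ v x x') • v (n + 1) = v (n + 1) := by
    rw [mul_assoc]
    exact phi_aux_fix T hx' hc' k2
  rw [phi_aux_unfold hn, map_mul, map_inv, A.π_I n (by omega) _ k1, A.π_I (n + 1) (by omega) _ kf]
  group

/-- The edge `a • v n → (a h) • v (n+1)`. -/
theorem phi_aux_exp (T : IsTower C Γ v) {x : Finset TT} {n : ℕ} {a h : Γ} (ha : a • v n = x)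
    (hh1 : h • v n = v n) : C.Exp x ((a * h) • v (n + 1)) := by
  have := T.smul_exp (a * h) (T.exp n)
  rwa [mul_smul a h (v n), hh1, ha] at this

/-- One step of an ascending path written with an arbitrary `a` with `a • v n = x`. -/
theorem phi_aux_step (T : IsTower C Γ v) (A : IsAmalgam C v N π I) {x : Finset TT}
    (hx : x ∈ C.K (v 0)) {n : ℕ} (hc : x.card = n + 1) (hn : n + 1 < N) {a h : Γ}
    (ha : a • v n = x) (hh1 : h • v n = v n) :
    phi v I x ((a * h) • v (n + 1)) = I n ((gg Γ v x)⁻¹ * a) * I n h *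
      (I (n + 1) ((gg Γ v ((a * h) • v (n + 1)))⁻¹ * a * h))⁻¹ := by
  have f1 := phi_aux_fix T hx hc ha
  have f2 : ((gg Γ v x)⁻¹ * a * h) • v n = v n := by
    rw [mul_smul, hh1, f1]
  have f3 : (gg Γ v x * ((gg Γ v x)⁻¹ * a * h)) • v (n + 1) = (a * h) • v (n + 1) := by
    congr 1
    group
  rw [phi_eq T A hx hc hn (phi_aux_exp T ha hh1) f2 f3, A.I_mul n (by omega) _ _ f1 hh1]
  congr 3
  group

/-- The first step (`a = g_x`). -/
theorem phi_aux_step0 (T : IsTower C Γ v) (A : IsAmalgam C v N π I) {x : Finset TT}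
    (hx : x ∈ C.K (v 0)) {n : ℕ} (hc : x.card = n + 1) (hn : n + 1 < N) {h : Γ}
    (hh1 : h • v n = v n) :
    phi v I x ((gg Γ v x * h) • v (n + 1)) = I n h *
      (I (n + 1) ((gg Γ v ((gg Γ v x * h) • v (n + 1)))⁻¹ * gg Γ v x * h))⁻¹ :=
  phi_eq T A hx hc hn (phi_aux_exp T (gg_spec T hx hc) hh1) hh1 rfl

/-- **4.2** for paths of length 2.  (4.1 for the first edge with `h' = h1`; for the second edge with
`h' = k1 * h2`, `k1 = g_{x1}⁻¹ g_x h1 ∈ H_{n+1}`.) -/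
theorem phi_two (T : IsTower C Γ v) (A : IsAmalgam C v N π I) {x : Finset TT}
    (hx : x ∈ C.K (v 0)) {n : ℕ} (hc : x.card = n + 1) (hn : n + 2 < N)
    {h1 h2 : Γ} (hh1 : h1 • v n = v n) (hh2 : h2 • v (n + 1) = v (n + 1)) :
    phi v I x ((gg Γ v x * h1) • v (n + 1)) *
      phi v I ((gg Γ v x * h1) • v (n + 1)) ((gg Γ v x * h1 * h2) • v (n + 2)) =
    I n h1 * I (n + 1) h2 *
      (I (n + 2) ((gg Γ v ((gg Γ v x * h1 * h2) • v (n + 2)))⁻¹ * gg Γ v x * h1 * h2))⁻¹ := by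
  have E1 := phi_aux_exp T (gg_spec T hx hc) hh1
  have hx1 := K_exp hx E1
  have hc1 : ((gg Γ v x * h1) • v (n + 1)).card = n + 1 + 1 := by rw [E1.card, hc]
  rw [phi_aux_step0 T A hx hc (by omega) hh1,
    phi_aux_step T A hx1 hc1 (by omega) (a := gg Γ v x * h1) rfl hh2]
  simp only [← mul_assoc, inv_mul_cancel_right]

/-- **4.2** for paths of length 3. -/
theorem phi_three (T : IsTower C Γ v) (A : IsAmalgam C v N π I) {x : Finset TT}
    (hx : x ∈ C.K (v 0)) {n : ℕ} (hc : x.card = n + 1) (hn : n + 3 < N)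
    {h1 h2 h3 : Γ} (hh1 : h1 • v n = v n) (hh2 : h2 • v (n + 1) = v (n + 1))
    (hh3 : h3 • v (n + 2) = v (n + 2)) :
    phi v I x ((gg Γ v x * h1) • v (n + 1)) *
      phi v I ((gg Γ v x * h1) • v (n + 1)) ((gg Γ v x * h1 * h2) • v (n + 2)) *
      phi v I ((gg Γ v x * h1 * h2) • v (n + 2)) ((gg Γ v x * h1 * h2 * h3) • v (n + 3)) =
    I n h1 * I (n + 1) h2 * I (n + 2) h3 *
      (I (n + 3) ((gg Γ v ((gg Γ v x * h1 * h2 * h3) • v (n + 3)))⁻¹ *
        gg Γ v x * h1 * h2 * h3))⁻¹ := by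
  have E1 := phi_aux_exp T (gg_spec T hx hc) hh1
  have hx1 := K_exp hx E1
  have hc1 : ((gg Γ v x * h1) • v (n + 1)).card = n + 1 + 1 := by rw [E1.card, hc]
  have E2 := phi_aux_exp T (a := gg Γ v x * h1) (n := n + 1) rfl hh2
  have hx2 := K_exp hx1 E2
  have hc2 : ((gg Γ v x * h1 * h2) • v (n + 1 + 1)).card = n + 2 + 1 := by rw [E2.card, hc1]
  rw [phi_two T A hx hc (by omega) hh1 hh2,
    phi_aux_step T A (n := n + 2) hx2 hc2 (by omega) (a := gg Γ v x * h1 * h2) rfl hh3]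
  simp only [← mul_assoc, inv_mul_cancel_right]

end CutSys
end Claimed.Agent.R152.B
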