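import Claimed.Agent.R152.B.Spare.SC

/-!
# Row 152, module B, sec. 4: THEOREM F, set-up (definitions for the whole section + basic lemmas)

Blueprint: `docs/R152_B.md` (branch `helper22`), sec. 4.  Differences from the blueprint:
* heights are indexed from `0`: `v n` has `n+1` tiles; the tower `v` is infinite and (T0)-(T3) hold at all heights
  (true in the model), only the group `P` knows the truncation `n < N` (so `K_{≤N}` = vertices with at most `N` tiles);
* the homomorphisms `i_n : H_n → P` are replaced by ONE total function `I : ℕ → Γ → P` which is only used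
  on `H_n = {h | h • v n = v n}` (no subtypes in the computations);
* (T2), (T3) are stated on cells (vertices), not on data (tiles).
`Γ` acts on `Finset TT` by the pointwise action (`open Pointwise`).
Statements and definitions are FROZEN; auxiliary lemmas are welcome.
-/

set_option autoImplicit false
open scoped Classical
open Pointwise

namespace Claimed.Agent.R152.B
namespace CutSys

universe u v w w'
variable {TT : Type u} {X : Type v}

/-- The data of sec. 4: a group acting on the tiles of a cut system, a tower of vertices `v n` (with `n+1` tiles),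
one orbit of vertices, edges, squares, hexagons at each height. -/
structure IsTower (C : CutSys TT X) (Γ : Type w) [Group Γ] [MulAction Γ TT]
    (v : ℕ → Finset TT) : Prop where
  part0 : C.IsPart (v 0)
  card : ∀ n, (v n).card = n + 1
  exp : ∀ n, C.Exp (v n) (v (n + 1))
  act_sp : ∀ (g : Γ) {a b c : TT}, C.Sp a b c → C.Sp (g • a) (g • b) (g • c)
  act_part : ∀ (g : Γ) {x : Finset TT}, C.IsPart x → C.IsPart (g • x)
  act_K : ∀ g : Γ, g • v 0 ∈ C.K (v 0)
  T0 : ∀ n, ∀ x ∈ C.K (v 0), x.card = n + 1 → ∃ g : Γ, g • v n = x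
  T1 : ∀ n x, C.Exp (v n) x → ∃ h : Γ, h • v n = v n ∧ h • v (n + 1) = x
  T2 : ∀ n x y z x' y' z', C.SqCell (v n) x y z → C.SqCell (v n) x' y' z' →
    ∃ h : Γ, h • v n = v n ∧ h • x = x' ∧ h • y = y' ∧ h • z = z'
  T3 : ∀ n x1 x2 y1 y2 z x1' x2' y1' y2' z', C.HxCell (v n) x1 x2 y1 y2 z →
    C.HxCell (v n) x1' x2' y1' y2' z' →
    ∃ h : Γ, h • v n = v n ∧ h • x1 = x1' ∧ h • x2 = x2' ∧ h • y1 = y1' ∧ h • y2 = y2' ∧ h • z = z'

/-- The hypotheses on `P` in Theorem F. -/
structure IsAmalgam (C : CutSys TT X) {Γ : Type w} [Group Γ] [MulAction Γ TT]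
    (v : ℕ → Finset TT) (N : ℕ) {P : Type w'} [Group P] (π : P →* Γ) (I : ℕ → Γ → P) : Prop where
  I_mul : ∀ n < N, ∀ h h' : Γ, h • v n = v n → h' • v n = v n → I n (h * h') = I n h * I n h'
  π_I : ∀ n < N, ∀ h : Γ, h • v n = v n → π (I n h) = h
  gen : ∀ Q : Subgroup P, (∀ n < N, ∀ h : Γ, h • v n = v n → I n h ∈ Q) → Q = ⊤
  /-- (Id) -/
  Id : ∀ n, n + 1 < N → ∀ e : Γ, e • v n = v n → e • v (n + 1) = v (n + 1) → I n e = I (n + 1) e
  /-- (Sq_n): one relation for one square cell at `v n` (if there is a square cell at all) -/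
  Sq : ∀ n, n + 2 < N → (∃ x y z, C.SqCell (v n) x y z) →
    ∃ h1 h2 k1 k2 : Γ, h1 • v n = v n ∧ k1 • v n = v n ∧
      h2 • v (n + 1) = v (n + 1) ∧ k2 • v (n + 1) = v (n + 1) ∧
      C.SqCell (v n) (h1 • v (n + 1)) (k1 • v (n + 1)) ((h1 * h2) • v (n + 2)) ∧
      (k1 * k2) • v (n + 2) = (h1 * h2) • v (n + 2) ∧
      I n h1 * I (n + 1) h2 * I (n + 2) ((h1 * h2)⁻¹ * (k1 * k2)) = I n k1 * I (n + 1) k2
  /-- (Hx_n): one relation for one hexagon cell at `v n` (if there is one) -/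
  Hx : ∀ n, n + 3 < N → (∃ x1 x2 y1 y2 z, C.HxCell (v n) x1 x2 y1 y2 z) →
    ∃ h1 h2 h3 k1 k2 k3 : Γ, h1 • v n = v n ∧ k1 • v n = v n ∧
      h2 • v (n + 1) = v (n + 1) ∧ k2 • v (n + 1) = v (n + 1) ∧
      h3 • v (n + 2) = v (n + 2) ∧ k3 • v (n + 2) = v (n + 2) ∧
      C.HxCell (v n) (h1 • v (n + 1)) ((h1 * h2) • v (n + 2)) (k1 • v (n + 1))
        ((k1 * k2) • v (n + 2)) ((h1 * h2 * h3) • v (n + 3)) ∧
      (k1 * k2 * k3) • v (n + 3) = (h1 * h2 * h3) • v (n + 3) ∧
      I n h1 * I (n + 1) h2 * I (n + 2) h3 * I (n + 3) ((h1 * h2 * h3)⁻¹ * (k1 * k2 * k3)) =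
        I n k1 * I (n + 1) k2 * I (n + 2) k3

variable {C : CutSys TT X} {Γ : Type w} [Group Γ] [MulAction Γ TT] {v : ℕ → Finset TT}

/-- the pointwise action commutes with `rep`. -/
theorem smul_rep (g : Γ) (x : Finset TT) (a b c : TT) :
    g • rep x a b c = rep (g • x) (g • a) (g • b) (g • c) := by
  ext t
  rw [← Finset.inv_smul_mem_iff, mem_rep, mem_rep, ← Finset.inv_smul_mem_iff, inv_smul_eq_iff,
    inv_smul_eq_iff, Ne, Ne, inv_smul_eq_iff]

namespace IsTower

theorem smul_exp (T : IsTower C Γ v) (g : Γ) {x y : Finset TT} (h : C.Exp x y) :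
    C.Exp (g • x) (g • y) := by
  obtain ⟨a, ha, b, c, hsp, hb, hc, rfl⟩ := h
  refine ⟨g • a, Finset.smul_mem_smul_finset ha, g • b, g • c, T.act_sp g hsp, ?_, ?_, smul_rep g x a b c⟩
  · rwa [Finset.smul_mem_smul_finset_iff]
  · rwa [Finset.smul_mem_smul_finset_iff]

theorem smul_mem_K (T : IsTower C Γ v) (g : Γ) {x : Finset TT} (h : x ∈ C.K (v 0)) :
    g • x ∈ C.K (v 0) := by
  have h' : Relation.ReflTransGen C.Adj (v 0) x := h
  clear h
  induction h' with
  | refl => exact T.act_K g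
  | tail _ hadj ih =>
    rcases hadj with he | he
    · exact K_exp ih (T.smul_exp g he)
    · exact K_exp_left ih (T.smul_exp g he)

theorem smul_sqCell (T : IsTower C Γ v) (g : Γ) {x y z t : Finset TT} (h : C.SqCell x y z t) :
    C.SqCell (g • x) (g • y) (g • z) (g • t) := by
  obtain ⟨a, ha, a', ha', hne, b, c, b', c', h1, h2, rfl, rfl, rfl⟩ := h
  refine ⟨g • a, Finset.smul_mem_smul_finset ha, g • a', Finset.smul_mem_smul_finset ha',
    fun e => hne (smul_left_cancel g e), g • b, g • c, g • b', g • c', T.act_sp g h1, T.act_sp g h2,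
    smul_rep _ _ _ _ _, smul_rep _ _ _ _ _, ?_⟩
  rw [smul_rep, smul_rep]

theorem smul_hxCell (T : IsTower C Γ v) (g : Γ) {x x1 x2 y1 y2 z : Finset TT}
    (h : C.HxCell x x1 x2 y1 y2 z) :
    C.HxCell (g • x) (g • x1) (g • x2) (g • y1) (g • y2) (g • z) := by
  obtain ⟨a, ha, b0, b1, c0, c1, q00, q01, q10, q11, h1, h2, h3, h4, h5, h6, rfl, rfl, rfl, rfl, rfl⟩ := h
  refine ⟨g • a, Finset.smul_mem_smul_finset ha, g • b0, g • b1, g • c0, g • c1, g • q00, g • q01,
    g • q10, g • q11, T.act_sp g h1, T.act_sp g h2, T.act_sp g h3, T.act_sp g h4, T.act_sp g h5,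
    T.act_sp g h6, ?_, ?_, ?_, ?_, ?_⟩ <;> simp only [smul_rep]

theorem mem_K (T : IsTower C Γ v) (n : ℕ) : v n ∈ C.K (v 0) := by
  induction n with
  | zero => exact K_base _
  | succ n ih => exact K_exp ih (T.exp n)

/-- Vertices of `K` are nonempty (a partition of a nonempty set; `X` is nonempty because `v 0` has a tile). -/
theorem card_pos (T : IsTower C Γ v) {x : Finset TT} (h : x ∈ C.K (v 0)) :
    ∃ n, x.card = n + 1 := by
  have hP : C.IsPart x := K_isPart T.part0 h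
  have h0 : (v 0).Nonempty := by
    rw [← Finset.card_pos, T.card 0]
    exact Nat.succ_pos _
  obtain ⟨a, -⟩ := h0
  obtain ⟨p, -⟩ := C.supp_nonempty a
  obtain ⟨b, hb, -⟩ := hP.cover p
  have hpos : 0 < x.card := Finset.card_pos.2 ⟨b, hb⟩
  exact ⟨x.card - 1, by omega⟩

end IsTower

variable (Γ v) in
/-- The chosen `g_u ∈ Γ` with `g_u • v n = u` (`|u| = n+1`), `g_{v 0} = 1`. -/
noncomputable def gg (x : Finset TT) : Γ :=
  if x = v 0 then 1 else if h : ∃ g : Γ, g • v (x.card - 1) = x then h.choose else 1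

theorem gg_base : gg Γ v (v 0) = 1 := by
  simp [gg]

theorem gg_spec (T : IsTower C Γ v) {x : Finset TT} (hx : x ∈ C.K (v 0)) {n : ℕ}
    (hc : x.card = n + 1) : gg Γ v x • v n = x := by
  unfold gg
  by_cases h0 : x = v 0
  · rw [if_pos h0, one_smul]
    have : n = 0 := by
      have h1 := T.card 0
      rw [← h0, hc] at h1
      omega
    rw [this, h0]
  · rw [if_neg h0]
    have hn : x.card - 1 = n := by omega
    have hex : ∃ g : Γ, g • v (x.card - 1) = x := by
      rw [hn]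
      exact T.T0 n x hx hc
    rw [dif_pos hex]
    have := hex.choose_spec
    generalize hex.choose = k at this ⊢
    rwa [hn] at this

variable (Γ v) in
/-- The chosen `h ∈ H_n` with `g_u h • v (n+1) = u'`, for `Exp u u'`, `|u| = n+1`. -/
noncomputable def hh (x x' : Finset TT) : Γ :=
  if h : ∃ h : Γ, h • v (x.card - 1) = v (x.card - 1) ∧ (gg Γ v x * h) • v (x.card - 1 + 1) = x'
  then h.choose else 1

theorem hh_spec (T : IsTower C Γ v) {x x' : Finset TT} (hx : x ∈ C.K (v 0)) {n : ℕ}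
    (hc : x.card = n + 1) (he : C.Exp x x') :
    hh Γ v x x' • v n = v n ∧ (gg Γ v x * hh Γ v x x') • v (n + 1) = x' := by
  have hn : x.card - 1 = n := by omega
  have hg : gg Γ v x • v n = x := gg_spec T hx hc
  have he' : C.Exp (v n) ((gg Γ v x)⁻¹ • x') := by
    have h1 := T.smul_exp (gg Γ v x)⁻¹ he
    rwa [inv_smul_eq_iff.2 hg.symm] at h1
  obtain ⟨h, h1, h2⟩ := T.T1 n _ he'
  have hex : ∃ h : Γ, h • v (x.card - 1) = v (x.card - 1) ∧
      (gg Γ v x * h) • v (x.card - 1 + 1) = x' := by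
    rw [hn]
    exact ⟨h, h1, by rw [mul_smul, h2, smul_inv_smul]⟩
  unfold hh
  rw [dif_pos hex]
  have := hex.choose_spec
  generalize hex.choose = k at this ⊢
  rwa [hn] at this

variable {P : Type w'} [Group P]

variable (v) in
/-- The `P`-valued cocycle `φ(u,u') = i_n(h) i_{n+1}(k)⁻¹`, `k = g_{u'}⁻¹ g_u h`. -/
noncomputable def phi (I : ℕ → Γ → P) (x x' : Finset TT) : P :=
  I (x.card - 1) (hh Γ v x x') *
    (I (x.card - 1 + 1) ((gg Γ v x')⁻¹ * gg Γ v x * hh Γ v x x'))⁻¹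

namespace IsAmalgam

variable {N : ℕ} {π : P →* Γ} {I : ℕ → Γ → P}

theorem I_one (A : IsAmalgam C v N π I) {n : ℕ} (hn : n < N) : I n 1 = 1 := by
  have h := A.I_mul n hn 1 1 (one_smul _ _) (one_smul _ _)
  rw [mul_one] at h
  exact (left_eq_mul.1 h)

theorem I_inv (A : IsAmalgam C v N π I) {n : ℕ} (hn : n < N) {h : Γ} (hh : h • v n = v n) :
    I n h⁻¹ = (I n h)⁻¹ := by
  have h1 : h⁻¹ • v n = v n := inv_smul_eq_iff.2 hh.symm
  have h2 := A.I_mul n hn h⁻¹ h h1 hh
  rw [inv_mul_cancel, A.I_one hn] at h2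
  exact eq_inv_of_mul_eq_one_left h2.symm

end IsAmalgam

end CutSys
end Claimed.Agent.R152.B
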